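import Vale.Agent.P352R.W.Bd
import Vale.Agent.P352W.Fk.Adj

/-!
# P352R W — the formal adjoint of a Wick monomial (helper98)
-/

set_option autoImplicit false
set_option linter.all false

open MeasureTheory
open scoped ComplexConjugate Classical

namespace Vale.Agent.P352R

open Vale.Agent.P352.GF Vale.Agent.P352W.Cn Vale.Agent.P352W.Fk
open Vale.Agent.P352W.Fk.Adj Vale.Agent.P352W.Fk.Kt

noncomputable section

variable {κ ψ χ : Wf} {n : ℕ}

theorem pg_W1 (n : ℕ) (hk : Gs κ) (h : Nice ψ) :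
    Pg rc fun z => W n (cn z.1 κ) ψ (mu z.2) := by
  obtain ⟨b, C, hC⟩ := bd_W1 n hk h 0
  refine ⟨(ms_W n (ms_cn (hk.1.at ()) measurable_id) (h.1.at ())).meas, b, |C|, fun z => ?_⟩
  have := hC z.1 (mu z.2)
  rw [pow_zero, mul_one] at this
  have r := (rr_pos z.1).le
  exact this.trans (mul_le_mul (le_abs_self C) (pow_le_pow_left₀ r
    (le_mul_of_one_le_right r (wt_one _)) b) (by positivity) (abs_nonneg C))

theorem rd_W2 (n : ℕ) (hk : Gs κ) (h : Nice ψ) :
    Rd rc fun z => W n (cn (-z.1) κ) (cn z.1 ψ) (mu z.2) := by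
  refine ⟨(ms_W n (ms_cn (hk.1.at ()) measurable_neg) (ms_cn (h.1.at ()) measurable_id)).meas,
    fun N => ?_⟩
  obtain ⟨C, hC⟩ := bd_W2 n hk h N
  refine ⟨C, fun z => ?_⟩
  have := hC z.1 (mu z.2)
  rw [le_div_iff₀ (pow_pos (rr_pos _) N)] at this
  rw [rc, wc, mul_pow, mul_comm (rr z.1 ^ N), ← mul_assoc]
  exact this

theorem half (ih : ∀ κ ψ χ, Gs κ → Nice ψ → Nice χ → ip (W n κ ψ) χ = ip ψ (W n (st κ) χ))
    (hk : Gs κ) (h : Nice ψ) (h' : Nice χ) :
    Aj (dv fun p => ci p • W n (cn p κ) ψ) χ ψ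
      fun σ => ∫ q, W n (cn (-q) (st κ)) (cn q χ) σ ∂Om := by
  have i := (Pg.rd wt_rc.1 (Pg.mul wt_rc.1 (pg_ci.fst r1 wt_wc.1) (pg_W1 n hk h)).conj
    (c1 h')).int wt_rc
  have t := (Pg.rd wt_rc.1 ((c0 h).pg.snd wt_wc.1 r1).conj (rd_W2 n hk.st h')).int wt_rc
  have m := ip_dl (F := fun p => ci p • W n (cn p κ) ψ) i
  have t2 := t.integral_prod_right
  simp only [integral_const_mul] at t2
  rw [dv_eq]
  refine ⟨m.1, t2, m.2.trans ?_⟩
  rw [← integral_integral_swap i]
  refine (integral_congr_ae (P352W.Fk.ci_ae.mono fun p hp => ?_)).trans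
    ((integral_integral_swap (f := fun p c => conj (ψ (mu c)) *
      W n (cn (-p) (st κ)) (cn p χ) (mu c)) t).trans ?_)
  · have := ih _ ψ _ (hk.cn p) h (nice_cn h' p)
    rw [st_cn] at this
    simp only [Pi.smul_apply, hp, one_smul]
    exact this
  · simp only [integral_const_mul]
    rfl

/-- **the adjoint of a Wick monomial** -/
theorem ip_W (n : ℕ) : ∀ {κ ψ χ : Wf}, Gs κ → Nice ψ → Nice χ →
    ip (W n κ ψ) χ = ip ψ (W n (st κ) χ) := by
  induction n with
  | zero =>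
    intro κ ψ χ _ _ _
    unfold ip
    refine congrArg lam (funext fun σ => ?_)
    simp only [W, st, Pi.smul_apply, smul_eq_mul, map_mul, Multiset.map_zero]
    ring
  | succ n ih =>
    intro κ ψ χ hk h h'
    have h1 := half (fun _ _ _ => ih) hk h h'
    have h2 := (half (fun _ _ _ => ih) hk.st h' h).symm
    rw [st_st] at h2
    have := (h1.add h2).2.2
    rw [add_comm (fun σ => ∫ q, W n (cn (-q) (st κ)) (cn q χ) σ ∂Om)] at this
    exact this

end

end Vale.Agent.P352R
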