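import Vale.Agent.P352R.W.Bd
import Vale.Agent.P352W.Fk.Cov

/-!
# P352R W — linearity, levels and covariance of the Wick monomials (helper98)
-/

set_option autoImplicit false
set_option linter.all false

open MeasureTheory
open scoped ComplexConjugate Classical Nat

namespace Vale.Agent.P352R

open Vale.Agent.P352.GF Vale.Agent.P352W.Cn Vale.Agent.P352W.Fk
open Vale.Agent.P352.H246 (linv isLor_linv)

noncomputable section

variable {κ κ' ψ χ : Wf}

theorem W_zero (κ ψ : Wf) : W 0 κ ψ = κ 0 • ψ := rfl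

theorem W_succ (n : ℕ) (κ ψ : Wf) : W (n + 1) κ ψ = dv (fun p => ci p • W n (cn p κ) ψ) +
    fun σ => ∫ q, W n (cn (-q) κ) (cn q ψ) σ ∂Om := rfl

theorem cn_add (p : V) (ψ χ : Wf) : cn p (ψ + χ) = cn p ψ + cn p χ := rfl

theorem cn_smul (p : V) (c : ℂ) (ψ : Wf) : cn p (c • ψ) = c • cn p ψ := rfl

theorem cn_comm (p q : V) (ψ : Wf) : cn p (cn q ψ) = cn q (cn p ψ) :=
  funext fun σ => congrArg ψ (Multiset.cons_swap q p σ)

theorem dv_add (F G : V → Wf) : dv (fun p => F p + G p) = dv F + dv G := funext fun σ => by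
  simp only [dv, Pi.add_apply, Multiset.sum_map_add]

theorem dv_smul (c : ℂ) (F : V → Wf) : dv (fun p => c • F p) = c • dv F := funext fun σ => by
  simp only [dv, Pi.smul_apply, smul_eq_mul, Multiset.sum_map_mul_left]

theorem W_smul (n : ℕ) (c : ℂ) : ∀ κ ψ : Wf, W n (c • κ) ψ = c • W n κ ψ := by
  induction n with
  | zero => intro κ ψ; rw [W_zero, W_zero, Pi.smul_apply, smul_assoc]
  | succ n ih =>
    intro κ ψ
    simp only [W_succ, cn_smul, ih, smul_comm (ci _) c, dv_smul, smul_add]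
    congr 1
    funext σ
    simp only [Pi.smul_apply, smul_eq_mul, integral_const_mul]

theorem W_smul' (n : ℕ) (c : ℂ) : ∀ κ ψ : Wf, W n κ (c • ψ) = c • W n κ ψ := by
  induction n with
  | zero => intro κ ψ; rw [W_zero, W_zero, smul_comm]
  | succ n ih =>
    intro κ ψ
    simp only [W_succ, cn_smul, ih, smul_comm (ci _) c, dv_smul, smul_add]
    congr 1
    funext σ
    simp only [Pi.smul_apply, smul_eq_mul, integral_const_mul]

theorem W_nil (n : ℕ) (ψ : Wf) : W n 0 ψ = 0 := by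
  have := W_smul n 0 0 ψ
  rwa [zero_smul, zero_smul] at this

theorem W_nil' (n : ℕ) (κ : Wf) : W n κ 0 = 0 := by
  have := W_smul' n 0 κ 0
  rwa [zero_smul, zero_smul] at this

theorem Sb.add {a N : ℕ} {c c' : ℝ} (h : Sb a N c κ) (h' : Sb a N c' κ') :
    Sb a N (c + c') (κ + κ') := fun σ =>
  le_trans (mul_le_mul_of_nonneg_right (norm_add_le (κ σ) (κ' σ)) (pow_pos (rr_pos _) N).le)
    (by rw [add_mul, add_mul]; exact add_le_add (h σ) (h' σ))

theorem Sb.smul {a N : ℕ} {c : ℝ} (z : ℂ) (h : Sb a N c κ) : Sb a N (‖z‖ * c) (z • κ) :=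
  fun σ => by
    rw [Pi.smul_apply, norm_smul, mul_assoc, mul_assoc]
    exact mul_le_mul_of_nonneg_left (h σ) (norm_nonneg z)

theorem Sb.up {a b N : ℕ} {c : ℝ} (h : Sb a N c κ) (le : a ≤ b) : Sb b N c κ := fun σ =>
  (h σ).trans (mul_le_mul_of_nonneg_left (pow_le_pow_right₀ (wt_one σ) le) h.nn)

theorem Gs.add (h : Gs κ) (h' : Gs κ') : Gs (κ + κ') := by
  obtain ⟨m, a, ha⟩ := h
  obtain ⟨m', b, hb⟩ := h'
  refine ⟨m.add m', a + b, fun N => ?_⟩
  obtain ⟨c, hc⟩ := ha N
  obtain ⟨d, hd⟩ := hb N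
  exact ⟨_, (hc.up (Nat.le_add_right a b)).add (hd.up (Nat.le_add_left b a))⟩

theorem Gs.smul (z : ℂ) (h : Gs κ) : Gs (z • κ) :=
  ⟨h.1.smul measurable_const, h.2.elim fun a b => ⟨a, fun N => (b N).elim fun _ s => ⟨_, s.smul z⟩⟩⟩

theorem gs_zero : Gs 0 := ⟨fun _ => measurable_const, 0, fun _ => ⟨0, fun σ => by simp⟩⟩

theorem Gs.sub (h : Gs κ) (h' : Gs κ') : Gs (κ - κ') := by
  have := h.add (h'.smul (-1))
  rwa [neg_one_smul, ← sub_eq_add_neg] at this

theorem Gs.sum {ι : Type*} (t : Finset ι) {k : ι → Wf} (h : ∀ i ∈ t, Gs (k i)) :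
    Gs (∑ i ∈ t, k i) := Finset.sum_induction k Gs (fun _ _ => Gs.add) gs_zero h

theorem W_add (n : ℕ) : ∀ {κ κ' ψ : Wf}, Gs κ → Gs κ' → Nice ψ →
    W n (κ + κ') ψ = W n κ ψ + W n κ' ψ := by
  induction n with
  | zero => intro κ κ' ψ _ _ _; rw [W_zero, W_zero, W_zero, Pi.add_apply, add_smul]
  | succ n ih =>
    intro κ κ' ψ a b h
    have e1 := fun p => ih (a.cn p) (b.cn p) h
    have e2 := fun q => ih (a.cn (-q)) (b.cn (-q)) (nice_cn h q)
    simp only [W_succ, cn_add, e1, e2, smul_add, dv_add]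
    rw [add_add_add_comm]
    congr 1
    funext σ
    exact integral_add (int_W2 n a h σ) (int_W2 n b h σ)

theorem W_add' (n : ℕ) : ∀ {κ ψ χ : Wf}, Gs κ → Nice ψ → Nice χ →
    W n κ (ψ + χ) = W n κ ψ + W n κ χ := by
  induction n with
  | zero => intro κ ψ χ _ _ _; rw [W_zero, W_zero, W_zero, smul_add]
  | succ n ih =>
    intro κ ψ χ a h h'
    have e1 := fun p => ih (a.cn p) h h'
    have e2 := fun q => ih (a.cn (-q)) (nice_cn h q) (nice_cn h' q)
    simp only [W_succ, cn_add, e1, e2, smul_add, dv_add]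
    rw [add_add_add_comm]
    congr 1
    funext σ
    exact integral_add (int_W2 n a h σ) (int_W2 n a h' σ)

theorem W_sub (n : ℕ) (a : Gs κ) (b : Gs κ') (h : Nice ψ) :
    W n (κ - κ') ψ = W n κ ψ - W n κ' ψ := by
  rw [eq_sub_iff_add_eq, ← W_add n (a.sub b) b h, sub_add_cancel]

theorem W_sub' (n : ℕ) (a : Gs κ) (h : Nice ψ) (h' : Nice χ) :
    W n κ (ψ - χ) = W n κ ψ - W n κ χ := by
  rw [eq_sub_iff_add_eq, ← W_add' n a (h.sub h') h', sub_add_cancel]

theorem W_sum (n : ℕ) {ι : Type*} (t : Finset ι) {k : ι → Wf} (a : ∀ i ∈ t, Gs (k i))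
    (h : Nice ψ) : W n (∑ i ∈ t, k i) ψ = ∑ i ∈ t, W n (k i) ψ := by
  induction t using Finset.induction_on with
  | empty => simpa using W_nil n ψ
  | insert i t hi ih =>
    have a' := fun j hj => a j (Finset.mem_insert_of_mem hj)
    rw [Finset.sum_insert hi, Finset.sum_insert hi,
      W_add n (a i (Finset.mem_insert_self i t)) (Gs.sum t a') h, ih a']

/-- only the values of the symbol in degree `n` matter -/
theorem W_congr (n : ℕ) : ∀ {κ κ' : Wf} (ψ : Wf), (∀ σ, Multiset.card σ = n → κ σ = κ' σ) →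
    W n κ ψ = W n κ' ψ := by
  induction n with
  | zero => intro κ κ' ψ h; rw [W_zero, W_zero, h 0 rfl]
  | succ n ih =>
    intro κ κ' ψ h
    have e : ∀ p χ, W n (cn p κ) χ = W n (cn p κ') χ := fun p χ =>
      ih χ fun σ hσ => h _ (by rw [Multiset.card_cons, hσ])
    simp only [W_succ, e]

theorem le_W (n : ℕ) : ∀ {m : ℕ} (κ : Wf) {ψ : Wf}, Le m ψ → Le (m + n) (W n κ ψ) := by
  induction n with
  | zero => intro m κ ψ h σ hσ; rw [W_zero, Pi.smul_apply, h σ hσ, smul_zero]
  | succ n ih =>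
    intro m κ ψ h σ hσ
    have e : ∀ q, W n (cn (-q) κ) (cn q ψ) σ = 0 := fun q =>
      ih (m := m) _ (fun τ hτ => h _ (by rw [Multiset.card_cons]; omega)) σ (by omega)
    rw [W_succ, Pi.add_apply]
    simp only [e, integral_zero, add_zero]
    refine Multiset.sum_eq_zero fun x hx => ?_
    obtain ⟨p, hp, rfl⟩ := Multiset.mem_map.1 hx
    beta_reduce
    rw [Pi.smul_apply, ih _ h _ (by rw [Multiset.card_erase_of_mem hp, Nat.pred_eq_sub_one]; omega),
      smul_zero]

theorem cn_vc (q : V) : cn q vc = 0 := funext fun σ => if_neg (Multiset.cons_ne_zero)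

/-- **the vector made from the vacuum** -/
theorem W_vc (n : ℕ) : ∀ (κ : Wf) (σ : Multiset V), W n κ vc σ =
    if Multiset.card σ = n then (n ! : ℂ) * (σ.map ci).prod * κ σ else 0 := by
  induction n with
  | zero =>
    intro κ σ
    rw [W_zero, Pi.smul_apply, vc]
    by_cases h : σ = 0
    · simp [h]
    · simp [h]
  | succ n ih =>
    intro κ σ
    rw [W_succ, Pi.add_apply]
    simp only [cn_vc, W_nil', Pi.zero_apply, integral_zero, add_zero]
    have e : ∀ p ∈ σ, (ci p • W n (cn p κ) vc) (σ.erase p) =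
        if Multiset.card σ = n + 1 then (n ! : ℂ) * (σ.map ci).prod * κ σ else 0 := fun p hp => by
      have c : Multiset.card σ = Multiset.card (σ.erase p) + 1 := by
        rw [← Multiset.card_cons, Multiset.cons_erase hp]
      rw [Pi.smul_apply, ih, cn, Multiset.cons_erase hp, c, smul_eq_mul]
      simp only [Nat.add_right_cancel_iff]
      split_ifs
      · rw [← Multiset.prod_map_erase (f := ci) hp]; ring
      · rw [mul_zero]
    unfold dv
    rw [Multiset.map_congr rfl e, Multiset.map_const', Multiset.sum_replicate]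
    split_ifs with h
    · rw [h, Nat.factorial_succ, nsmul_eq_mul]; push_cast; ring
    · rw [smul_zero]

theorem W_one (κ ψ : Wf) : W 1 κ ψ = P352W.Fk.ph (fun p => κ {p}) ψ := by
  simp only [W_succ, W_zero, P352W.Fk.ph, smul_smul]
  rfl

theorem W_ph (h : V → ℂ) (ψ : Wf) : W 1 (fun σ => h σ.sum) ψ = P352W.Fk.ph h ψ := by
  simp only [W_one, Multiset.sum_singleton]

section cov

open Cov

variable {s : ℝ} {L : Ix → V} {a : V}

theorem cn_gm (p : V) (ψ : Wf) :
    cn p (gm s L a ψ) = ee s a p • gm s L a (cn (tt s L p) ψ) := funext fun σ => by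
  simp only [cn, gm_eq, Multiset.map_cons, Multiset.prod_cons, Pi.smul_apply, smul_eq_mul,
    mul_assoc]

/-- **covariance**: the symbol transforms like a wave function -/
theorem W_gm (hs : 0 < s) (hL : IsLor L) (n : ℕ) : ∀ κ ψ : Wf,
    W n (gm s L a κ) (gm s L a ψ) = gm s L a (W n κ ψ) := by
  induction n with
  | zero =>
    intro κ ψ
    rw [W_zero, W_zero, gm_smul, gm_eq]
    simp
  | succ n ih =>
    intro κ ψ
    rw [W_succ, W_succ, gm_add]
    congr 1
    · refine dv_gm hs hL fun p => ?_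
      rw [cn_gm, W_smul, ih, gm_smul, ci_tt hs hL, smul_comm]
    · funext σ
      have h1 := integral_sim hs (isLor_linv hL)
        fun q => W n (cn (-q) κ) (cn q ψ) (σ.map (tt s L))
      have h2 : ∀ q, W n (cn (-q) (gm s L a κ)) (cn q (gm s L a ψ)) σ =
          ((σ.map (ee s a)).prod * (s : ℂ) ^ 2) * W n (cn (-sim s (linv L) 0 q) κ)
            (cn (sim s (linv L) 0 q) ψ) (σ.map (tt s L)) := fun q => by
        rw [cn_gm, cn_gm, W_smul, W_smul', ih, smul_smul, ee_mul_neg, tt_neg, Pi.smul_apply, gm_eq,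
          smul_eq_mul, ← mul_assoc, mul_comm ((s : ℂ) ^ 2)]
        rfl
      simp only [h2]
      rw [integral_const_mul, h1, Complex.real_smul, gm_eq]
      have h3 : (s : ℂ) ≠ 0 := Complex.ofReal_ne_zero.2 hs.ne'
      push_cast
      field_simp

end cov

end

end Vale.Agent.P352R
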