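import Vale.Agent.P352R.Df
import Vale.Agent.P352R.W.Lin
import Vale.Agent.P352R.Ap.Ker
import Vale.Agent.P352W.Fk.U0

/-!
# P352R W — covariance of the Wick monomials (helper98)
-/

set_option autoImplicit false
set_option linter.all false

open MeasureTheory
open scoped ComplexConjugate Classical Nat

namespace Vale.Agent.P352R

open Vale.Agent.P352.GF Vale.Agent.P352W Vale.Agent.P352W.Cn Vale.Agent.P352W.Fk
open Vale.Agent.P352.H246 (linv isLor_linv)
open Cov

noncomputable section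

namespace Cv

theorem sy_map {t : V → V} (ht : Function.Injective t) (n : ℕ) :
    ∀ (G : (Fin n → V) → ℂ) (σ : Multiset V),
      sy n (fun x => G fun i => t (x i)) σ = sy n G (σ.map t) := by
  induction n with
  | zero =>
    intro G σ
    simp only [sy, Pi.smul_apply, vc, Multiset.map_eq_zero]
    exact congrArg (fun x => G x • _) (Subsingleton.elim _ _)
  | succ n ih =>
    intro G σ
    simp only [sy, dv]
    rw [Multiset.map_map]
    refine congrArg _ (Multiset.map_congr rfl fun p _ => ?_)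
    rw [Function.comp_apply, ← Multiset.map_erase _ ht, ← ih]
    refine congrArg (fun H => sy n H _) (funext fun x => congrArg G (funext fun i => ?_))
    exact Fin.cases rfl (fun _ => rfl) i

theorem sy_sum {ι : Type*} (t : Finset ι) (c : ι → ℂ) (n : ℕ) :
    ∀ (G : ι → (Fin n → V) → ℂ) (σ : Multiset V),
      sy n (fun x => ∑ i ∈ t, c i * G i x) σ = ∑ i ∈ t, c i * sy n (G i) σ := by
  induction n with
  | zero =>
    intro G σ
    simp only [sy, Pi.smul_apply, smul_eq_mul, Finset.sum_mul, mul_assoc]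
  | succ n ih =>
    intro G σ
    simp only [sy, dv, ih, ← Multiset.sum_map_mul_left]
    exact Multiset.sum_map_sum_map σ t.val

theorem ms_sy (n : ℕ) : ∀ {α : Type} [MeasurableSpace α] {G : α → (Fin n → V) → ℂ},
    (Measurable fun z : α × (Fin n → V) => G z.1 z.2) → Ms fun a => sy n (G a) := by
  induction n with
  | zero =>
    intro α _ G h
    exact (nice_vc.1.at ()).smul (h.comp (measurable_id.prodMk measurable_const))
  | succ n ih =>
    intro α _ G h
    exact Ms.dv (F := fun a p => sy n fun x => G a (Fin.cons p x))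
      (ih (G := fun (z : α × V) x => G z.1 (Fin.cons z.2 x)) (h.comp (measurable_fst.fst.prodMk
        (meas_cons.comp (measurable_fst.snd.prodMk measurable_snd)))))

theorem bd_sy (n k : ℕ) : ∀ {c : ℝ} {G : (Fin n → V) → ℂ}, (∀ x, ‖G x‖ ≤ c * wt (ms x) ^ k) →
    ∀ σ, ‖sy n G σ‖ ≤ c * wt σ ^ (k + n) := by
  induction n with
  | zero =>
    intro c G h σ
    have := h default
    rw [ms_zero, wt_zero, one_pow, mul_one] at this
    simp only [sy, Pi.smul_apply, vc]
    split_ifs with e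
    · simpa [e, wt_zero] using this
    · rw [smul_zero, norm_zero]
      exact mul_nonneg ((norm_nonneg _).trans this) (pow_pos (wt_pos σ) _).le
  | succ n ih =>
    intro c G h
    have c0 : 0 ≤ c := nonneg_of_mul_nonneg_left ((norm_nonneg _).trans (h 0))
      (pow_pos (wt_pos _) k)
    refine Ap.dv_le (k := k + n) fun p τ => (ih (c := c * rr p ^ k) (fun x => ?_) τ).trans ?_
    · have := h (Fin.cons p x)
      rwa [ms_cons, wt_cons, mul_pow, ← mul_assoc] at this
    · rw [mul_pow, mul_assoc]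
      exact mul_le_mul_of_nonneg_left (mul_le_mul_of_nonneg_right
        (pow_le_pow_right₀ (rr_one p) (k.le_add_right n)) (pow_pos (wt_pos τ) _).le) c0

variable {n k : ℕ} (π : Fin k → Fin n) (μ : Fin k → Ix)

theorem bd_tm (x : Fin n → V) : ‖tm π μ x‖ ≤ 1 * wt (ms x) ^ k := by
  rw [tm, norm_prod, one_mul]
  refine (Finset.prod_le_prod (fun _ _ => norm_nonneg _) fun j _ => ?_).trans_eq
    ((Finset.prod_const (wt (ms x))).trans (by rw [Finset.card_univ, Fintype.card_fin]))
  rw [norm_mul, Complex.norm_I, one_mul, Complex.norm_real, wt_ms]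
  refine (norm_le_pi_norm (x (π j)) (μ j)).trans (le_trans ?_
    (Finset.single_le_prod' (f := fun i => (⟨rr (x i), (rr_pos _).le⟩ : NNReal))
      (fun i _ => rr_one (x i)) (Finset.mem_univ (π j)) |> NNReal.coe_le_coe.2 |>.trans_eq
        (NNReal.coe_prod _ _)))
  exact le_add_of_nonneg_left zero_le_two

theorem meas_tm : Measurable (tm π μ) := by
  unfold tm
  fun_prop

theorem gs_of {G : (Fin n → V) → ℂ} (m : Measurable G) {c : ℝ} (b : ∀ x, ‖G x‖ ≤ c * wt (ms x) ^ k)
    {f : Fn} (hf : IsTest f) : Gs (kS n G f) := by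
  refine ⟨(ms_sy n (G := fun _ : Unit => G) (m.comp measurable_snd)).mul fun j => ?_, k + n,
    fun N => ?_⟩
  · have e : ∀ x : Fin j → V, (ms x).sum = ∑ i, x i := fun x => by
      simpa using sum_ms (fun p => p) x
    simp only [e]
    exact (Kr.hs_ft hf).1.comp (Finset.measurable_sum _ fun i _ =>
      (measurable_pi_apply i).comp measurable_snd)
  · obtain ⟨C, hC⟩ := (Kr.hs_ft hf).2 N
    refine ⟨c * C, fun σ => ?_⟩
    rw [kS, norm_mul, mul_assoc, mul_right_comm]
    exact mul_le_mul (bd_sy n k b σ) (hC _) (mul_nonneg (norm_nonneg _) (pow_pos (rr_pos _) N).le)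
      ((norm_nonneg _).trans (bd_sy n k b σ))

theorem gs_tm {f : Fn} (hf : IsTest f) : Gs (kS n (tm π μ) f) := gs_of (meas_tm π μ) (bd_tm π μ) hf

theorem tm_sim (s : ℝ) (M : Ix → V) (x : Fin n → V) : tm π μ (fun i => sim s M 0 (x i)) =
    ∑ ν : Fin k → Ix, ((s ^ k * ∏ j, M (ν j) (μ j) : ℝ) : ℂ) * tm π ν x := by
  have e : ∀ j, Complex.I * (sim s M 0 (x (π j)) (μ j) : ℝ) =
      ∑ m, (s * M m (μ j) : ℝ) * (Complex.I * x (π j) m) := fun j => by
    simp only [sim, Pi.zero_apply, zero_add, Finset.mul_sum]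
    push_cast
    rw [Finset.mul_sum]
    exact Finset.sum_congr rfl fun m _ => by ring
  simp only [tm, e]
  rw [Finset.prod_univ_sum, Fintype.piFinset_univ]
  refine Finset.sum_congr rfl fun ν _ => ?_
  rw [Finset.prod_mul_distrib, ← Complex.ofReal_prod, Finset.prod_mul_distrib, Finset.prod_const,
    Finset.card_univ, Fintype.card_fin]

theorem kS_sum {ι : Type*} (t : Finset ι) (c : ι → ℂ) (G : ι → (Fin n → V) → ℂ) (f : Fn) :
    kS n (fun x => ∑ i ∈ t, c i * G i x) f = ∑ i ∈ t, c i • kS n (G i) f := funext fun σ => by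
  simp only [kS, sy_sum, Finset.sum_apply, Pi.smul_apply, smul_eq_mul, Finset.sum_mul, mul_assoc]

variable {s : ℝ} {L : Ix → V} {a : V}

theorem prod_ee (σ : Multiset V) : (σ.map (ee s a)).prod =
    (s : ℂ) ^ Multiset.card σ * Complex.exp (Complex.I * mdot σ.sum a) := by
  rw [← Ap.pw_exp]
  unfold ee Ap.pw
  rw [Multiset.prod_map_mul, Multiset.map_const', Multiset.prod_replicate]

theorem sum_tt (σ : Multiset V) : (σ.map (tt s L)).sum = tt s L σ.sum := by
  induction σ using Multiset.induction_on with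
  | empty => funext m; simp [tt, sim]
  | cons p σ ih => rw [Multiset.map_cons, Multiset.sum_cons, Multiset.sum_cons, ih, tt, sim_add]

theorem gm_kS (hs : 0 < s) (hL : IsLor L) (G : (Fin n → V) → ℂ) (f : Fn) (σ : Multiset V)
    (h : Multiset.card σ = n) : gm s L a (kS n G fun x => f (sim s L a x)) σ =
      (((s : ℂ) ^ n / s ^ 4) • kS n (fun x => G fun i => tt s L (x i)) f) σ := by
  have h3 : (s : ℂ) ≠ 0 := Complex.ofReal_ne_zero.2 hs.ne'
  rw [gm_eq, prod_ee, h, Pi.smul_apply, kS, kS, sum_tt, sy_map (tt_inj hs hL),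
    ft_tt hs hL (a := a) f, smul_eq_mul]
  field_simp

/-- the transform of a Wick monomial -/
theorem gm_W (hs : 0 < s) (hL : IsLor L) (G : (Fin n → V) → ℂ) (f : Fn) (ψ : Wf) :
    gm s L a (W n (kS n G fun x => f (sim s L a x)) ψ) =
      ((s : ℂ) ^ n / s ^ 4) • W n (kS n (fun x => G fun i => tt s L (x i)) f) (gm s L a ψ) := by
  rw [← W_gm hs hL, W_congr n _ (gm_kS hs hL G f), W_smul]

end Cv

open Cv

variable {n k : ℕ} {s : ℝ} {L : Ix → V} {a : V} {f : Fn} {ψ : Wf}

/-- **covariance of the Wick monomials** -/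
theorem cov_W (π : Fin k → Fin n) (μ : Fin k → Ix) (hs : 0 < s) (hL : IsLor L) (hf : IsTest f)
    (h : Nice ψ) : W n (kS n (tm π μ) f) (gm s L a ψ) = ∑ ν : Fin k → Ix,
      ((s ^ (4 - ((n + k : ℕ) : ℝ)) * ∏ j, L (ν j) (μ j) : ℝ) : ℂ) •
        gm s L a (W n (kS n (tm π ν) fun x => f (sim s L a x)) ψ) := by
  have t := test_sim hs hL a hf
  simp only [← gm_smul, ← W_smul]
  rw [← gm_sum, ← W_sum n _ (fun ν _ => (gs_tm π ν t).smul _) h, ← kS_sum, gm_W hs hL, ← W_smul]
  refine W_congr n _ fun σ _ => ?_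
  have e : ∀ x : Fin n → V, ∑ ν : Fin k → Ix,
      ((s ^ (4 - ((n + k : ℕ) : ℝ)) * ∏ j, L (ν j) (μ j) : ℝ) : ℂ) *
        tm π ν (fun i => tt s L (x i)) = ∑ _i : Unit, ((s : ℂ) ^ 4 / s ^ n) * tm π μ x := fun x => by
    have h1 := tm_sim π μ s⁻¹ L fun i => tt s L (x i)
    have h2 : (fun i => sim s⁻¹ L 0 (tt s L (x i))) = x := funext fun i => U.mm_l hs hL _
    rw [h2] at h1
    rw [Fintype.sum_unique (ι := Unit), h1, Finset.mul_sum]
    refine Finset.sum_congr rfl fun ν _ => ?_
    have h3 : (s : ℂ) ≠ 0 := Complex.ofReal_ne_zero.2 hs.ne'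
    rw [Real.rpow_sub hs, Real.rpow_natCast, Real.rpow_ofNat, pow_add, inv_pow]
    push_cast
    field_simp
  have h3 : (s : ℂ) ≠ 0 := Complex.ofReal_ne_zero.2 hs.ne'
  simp only [e]
  rw [kS_sum, Fintype.sum_unique, smul_smul, div_mul_div_cancel₀ (pow_ne_zero _ h3),
    div_self (pow_ne_zero _ h3), one_smul]

theorem Cv.wd_nice (h : Wd ψ) : Nice ψ := by
  induction h with
  | vc => exact nice_vc
  | zero => exact nice_zero
  | add _ _ a b => exact a.add b
  | smul c _ a => exact a.smul c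
  | ph hf _ a => exact nice_ph (Kr.hs_ft hf) a
  | qq m n hf _ a => exact nice_qq (Kr.ks_kT m n hf) a
  | wk π μ hf _ a => exact nice_W _ (gs_tm π μ hf) a

theorem Cv.wd_sum {ι : Type*} (t : Finset ι) {F : ι → Wf} (h : ∀ i, Wd (F i)) :
    Wd (∑ i ∈ t, F i) := Finset.sum_induction F Wd (fun _ _ => Wd.add) Wd.zero fun i _ => h i

/-- **the similitudes act on the words** -/
theorem wd_gm (hs : 0 < s) (hL : IsLor L) (h : Wd ψ) : Wd (gm s L a ψ) := by
  induction h with
  | vc => rw [gm_vc]; exact Wd.vc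
  | zero => rw [gm_zero]; exact Wd.zero
  | add _ _ h h' => rw [gm_add]; exact h.add h'
  | smul c _ h => rw [gm_smul]; exact h.smul c
  | ph hf _ h =>
    obtain ⟨g, hg, rfl⟩ := ex_test hs hL a hf
    rw [gm_ph hs hL]
    exact (Wd.ph hg h).smul _
  | qq m n hf _ h =>
    obtain ⟨g, hg, rfl⟩ := ex_test hs hL a hf
    rw [gm_qq hs hL m n hg (wd_nice h)]
    exact wd_sum _ fun k => wd_sum _ fun l => (Wd.qq k l hg h).smul _
  | wk π μ hf _ h =>
    obtain ⟨g, hg, rfl⟩ := ex_test hs hL a hf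
    rw [gm_W hs hL]
    simp only [tt, tm_sim]
    rw [kS_sum, W_sum _ _ (fun ν _ => (gs_tm π ν hg).smul _) (wd_nice h)]
    simp only [W_smul]
    exact (wd_sum _ fun ν => (Wd.wk π ν hg h).smul _).smul _

end

end Vale.Agent.P352R
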