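import Vale.Agent.P352R.Ap.Mo
import Vale.Agent.P352R.W.Lin
import Vale.Agent.P352W.Fk.Cont

/-!
# P352R W — the Wick monomials are linear, hermitian and continuous (helper14)
-/

set_option autoImplicit false
set_option linter.all false

open MeasureTheory
open scoped ComplexConjugate Classical

namespace Vale.Agent.P352R

open Vale.Agent.P352.GF Vale.Agent.P352W.Cn Vale.Agent.P352W.Fk

noncomputable section

variable {n k : ℕ} (π : Fin k → Fin n) (μ : Fin k → Ix) {f g : Fn} {ψ χ : Wf}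

theorem kS_lin0 (G : (Fin n → V) → ℂ) (hf : IsTest f) (hg : IsTest g) (c : ℂ) :
    kS n G (fun x => f x + c * g x) = kS n G f + c • kS n G g := funext fun σ => by
  simp only [kS, Pi.add_apply, Pi.smul_apply, smul_eq_mul, P352W.Ft.ft_lin hf hg c]; ring

theorem lin_W (hf : IsTest f) (hg : IsTest g) (c : ℂ) (h : Nice ψ) :
    W n (kS n (tm π μ) fun x => f x + c * g x) ψ =
      W n (kS n (tm π μ) f) ψ + c • W n (kS n (tm π μ) g) ψ := by
  rw [kS_lin0 _ hf hg, W_add n (Ap.gs_kS π μ hf) ((Ap.gs_kS π μ hg).smul c) h, W_smul]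

theorem herm_W (hf : IsTest f) (h : Nice ψ) (h' : Nice χ) :
    ip (W n (kS n (tm π μ) f) ψ) χ = ip ψ (W n (kS n (tm π μ) (bar f)) χ) := by
  rw [ip_W n (Ap.gs_kS π μ hf) h h', Ap.st_kS]

theorem cont_W (h : Nice ψ) : Continuous fun g => toL (W n (kS n (tm π μ) (ev g)) ψ) := by
  obtain ⟨a, c, c0, e⟩ := (Ap.pn_tm π μ).bd
  obtain ⟨M, K, -, b⟩ := bd_W n a 2
  obtain ⟨p, h1, h2, h3⟩ := Ct.hb_ft M
  obtain ⟨C, hC⟩ := h.2 M
  refine Ct.cont_of (fun g => nice_W n (Ap.gs_kS π μ ⟨g, rfl⟩) h) (fun g g' => ?_)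
    (p := fun g => K * (c * p g) * C) (by fun_prop) (by simp [h2]) fun g => b _ _ _ _ (fun σ => ?_) hC
  · rw [← W_add n (Ap.gs_kS π μ ⟨_, rfl⟩) (Ap.gs_kS π μ ⟨_, rfl⟩) h]
    exact congrArg (W n · ψ) (funext fun σ => by
      rw [Pi.add_apply, kS, kS, kS, Ct.ft_split g g', mul_add])
  · rw [kS, norm_mul, mul_assoc, mul_right_comm c]
    exact mul_le_mul (e σ) (h3 g _) (mul_nonneg (norm_nonneg _) (pow_pos (rr_pos _) M).le)
      ((norm_nonneg _).trans (e σ))

end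

end Vale.Agent.P352R
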