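import Vale.Agent.P352R.W.Wk
import Vale.Agent.P352R.W.Lin
import Vale.Agent.P352R.Ap.Ps
import Vale.Agent.P352R.Df

/-! # P352R W — the row `WICK` (helper14) -/

set_option autoImplicit false

namespace Vale.Agent.P352R

theorem wick_row : Ap.WICK := fun _ n _ _ hh hk hψ => wick n hh (Ap.gs_nice hk) hψ

end Vale.Agent.P352R
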