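import Vale.Agent.P352R.W.Def

/-!
# P352R W — measurability and bounds of the Wick monomials (helper98)
-/

set_option autoImplicit false
set_option linter.all false

open MeasureTheory
open scoped ComplexConjugate Classical

namespace Vale.Agent.P352R

open Vale.Agent.P352.GF Vale.Agent.P352W.Cn Vale.Agent.P352W.Fk
open Vale.Agent.P352.H496 (IsNull)

noncomputable section

variable {α : Type} [MeasurableSpace α]

theorem ms_cn {F : α → Wf} {u : α → V} (h : Ms F) (hu : Measurable u) :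
    Ms fun a => cn (u a) (F a) :=
  h.cons.comp (g := fun a => (a, u a)) (measurable_id.prodMk hu)

theorem ms_W (n : ℕ) : ∀ {α : Type} [MeasurableSpace α] {k F : α → Wf}, Ms k → Ms F →
    Ms fun a => W n (k a) (F a) := by
  induction n with
  | zero => intro α _ k F hk hF; exact hF.smul (hk.par 0)
  | succ n ih =>
    intro α _ k F hk hF
    refine Ms.add (Ms.dv (F := fun a p => ci p • W n (cn p (k a)) (F a)) ?_)
      (Ms.int (F := fun a q => W n (cn (-q) (k a)) (cn q (F a))) ?_)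
    · exact (ih (ms_cn (hk.comp measurable_fst) measurable_snd) (hF.comp measurable_fst)).smul
        (meas_ci.comp measurable_snd)
    · exact ih (ms_cn (hk.comp measurable_fst) measurable_snd.neg)
        (ms_cn (hF.comp measurable_fst) measurable_snd)

theorem bd_cn {N M : ℕ} {C : ℝ} {ψ : Wf} (h : Bd M C ψ) (le : N ≤ M) (q : V) :
    Bd N (C / rr q ^ M) (cn q ψ) := fun σ => by
  have r := rr_pos q
  have := h (q ::ₘ σ)
  rw [wt_cons, mul_pow] at this
  rw [le_div_iff₀ (by positivity)]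
  refine le_trans ?_ this
  rw [mul_assoc, mul_comm (wt σ ^ N)]
  exact mul_le_mul_of_nonneg_left (mul_le_mul_of_nonneg_left
    (pow_le_pow_right₀ (wt_one σ) le) (by positivity)) (norm_nonneg _)

theorem fw_add {P p : V} (hP : ‖P‖ ≤ P o) (hp : ‖p‖ ≤ p o) :
    ‖P + p‖ ≤ (P + p) o ∧ rr P ≤ rr (P + p) ∧ rr p ≤ rr (P + p) := by
  have h3 : ‖(P + p) o‖ ≤ ‖P + p‖ := norm_le_pi_norm _ _
  have h4 : P o + p o ≤ ‖(P + p) o‖ := le_abs_self _
  have := norm_add_le P p
  have := norm_nonneg P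
  have := norm_nonneg p
  unfold rr
  exact ⟨by rw [Pi.add_apply]; linarith, by linarith, by linarith⟩

/-- the bound, with a forward vector `P` and a shift `y` -/
theorem bd0 (n a : ℕ) : ∀ N : ℕ, ∃ (M : ℕ) (K : ℝ), 0 ≤ K ∧ ∀ (c C : ℝ) (κ ψ : Wf) (P y : V),
    0 ≤ c → ‖P‖ ≤ P o →
    (∀ σ, Multiset.card σ = n → ‖κ σ‖ * rr (P + y + σ.sum) ^ M ≤ c * wt σ ^ a) → Bd M C ψ →
    ∀ σ, ‖W n κ ψ σ‖ * wt σ ^ N * rr P ^ N ≤ K * c * C * rr y ^ M := by
  induction n with
  | zero =>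
    refine fun N => ⟨N, 1, zero_le_one, fun c C κ ψ P y c0 hP hk hψ σ => ?_⟩
    have h1 := hk 0 rfl
    rw [wt_zero, one_pow, mul_one, Multiset.sum_zero, add_zero] at h1
    have h2 : rr P ≤ rr (P + y) * rr y := by
      have := rr_add (P + y) (-y)
      rwa [add_neg_cancel_right, rr_neg] at this
    have h3 := pow_le_pow_left₀ (rr_pos P).le h2 N
    have r1 := rr_pos y
    have r2 := rr_pos (P + y)
    have w := wt_pos σ
    have C0 := hψ.nn
    calc ‖W 0 κ ψ σ‖ * wt σ ^ N * rr P ^ N = ‖κ 0‖ * rr P ^ N * (‖ψ σ‖ * wt σ ^ N) := by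
          rw [W, Pi.smul_apply, norm_smul]; ring
      _ ≤ ‖κ 0‖ * (rr (P + y) * rr y) ^ N * C := by gcongr; exact hψ σ
      _ = ‖κ 0‖ * rr (P + y) ^ N * (C * rr y ^ N) := by ring
      _ ≤ c * (C * rr y ^ N) := by gcongr
      _ = _ := by ring
  | succ n ih =>
    intro N
    obtain ⟨M, K, K0', h⟩ := ih (2 * N + 1 + a)
    refine ⟨M + a + 3, K + K0 * K, by have := K0_nn; positivity,
      fun c C κ ψ P y c0 hP hk hψ σ => ?_⟩
    have C0 := hψ.nn
    have ry := rr_pos y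
    have rP := rr_pos P
    have w := wt_pos σ
    have hy : rr y ^ M ≤ rr y ^ (M + a + 3) := pow_le_pow_right₀ (rr_one y) (by omega)
    have hk' : ∀ p z σ, Multiset.card σ = n → z = P + y + p →
        ‖cn p κ σ‖ * rr (z + σ.sum) ^ M ≤ c * rr p ^ a * wt σ ^ a := fun p z σ hσ hz => by
      have := hk (p ::ₘ σ) (by rw [Multiset.card_cons, hσ])
      rw [wt_cons, mul_pow, ← mul_assoc, Multiset.sum_cons, ← add_assoc, ← hz] at this
      exact le_trans (mul_le_mul_of_nonneg_left (pow_le_pow_right₀ (rr_one _) (by omega))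
        (norm_nonneg _)) this
    have h1 : Bd N (K * c * C * rr y ^ M / rr P ^ N) (dv fun p => ci p • W n (cn p κ) ψ) := by
      refine bd_dv fun p τ => ?_
      have rp := rr_pos p
      have wτ := wt_pos τ
      rw [Pi.smul_apply, norm_smul]
      unfold ci
      split_ifs with hp
      · obtain ⟨f1, f2, f3⟩ := fw_add hP (Bq.norm_null hp)
        have f4 := rr_pos (P + p)
        have := h (c * rr p ^ a) C (cn p κ) ψ (P + p) y (by positivity) f1
          (fun σ hσ => hk' p _ σ hσ (add_right_comm _ _ _)) (hψ.mono (by omega)) τ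
        have e : rr p ^ (N + 1) * rr P ^ N * rr p ^ a ≤ rr (P + p) ^ (2 * N + 1 + a) := by
          rw [show 2 * N + 1 + a = N + 1 + N + a by ring, pow_add _ _ a, pow_add _ _ N]
          gcongr
        have e2 : wt τ ^ (N + 1) ≤ wt τ ^ (2 * N + 1 + a) :=
          pow_le_pow_right₀ (wt_one τ) (by omega)
        rw [norm_one, one_mul, le_div_iff₀ (by positivity)]
        refine le_of_mul_le_mul_right (a := rr p ^ a) ?_ (by positivity)
        calc _ = ‖W n (cn p κ) ψ τ‖ * wt τ ^ (N + 1) * (rr p ^ (N + 1) * rr P ^ N * rr p ^ a) := by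
              ring
          _ ≤ ‖W n (cn p κ) ψ τ‖ * wt τ ^ (2 * N + 1 + a) * rr (P + p) ^ (2 * N + 1 + a) := by
              gcongr
          _ ≤ _ := this.trans_eq (by ring)
      · rw [norm_zero, zero_mul, zero_mul]; positivity
    have h2 : ∀ q, ‖W n (cn (-q) κ) (cn q ψ) σ‖ ≤
        (rr q ^ 3)⁻¹ * (K * c * C * rr y ^ M / (wt σ ^ N * rr P ^ N)) := fun q => by
      have rq := rr_pos q
      have := h (c * rr (-q) ^ a) _ (cn (-q) κ) (cn q ψ) P (y + -q)
        (by have := rr_pos (-q); positivity) hP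
        (fun σ hσ => hk' (-q) _ σ hσ (add_assoc _ _ _).symm) (bd_cn hψ (by omega) q) σ
      have e : rr (y + -q) ^ M ≤ (rr y * rr q) ^ M :=
        pow_le_pow_left₀ (rr_pos _).le ((rr_add _ _).trans_eq (by rw [rr_neg])) M
      have e1 : wt σ ^ N ≤ wt σ ^ (2 * N + 1 + a) := pow_le_pow_right₀ (wt_one σ) (by omega)
      have e2 : rr P ^ N ≤ rr P ^ (2 * N + 1 + a) := pow_le_pow_right₀ (rr_one P) (by omega)
      rw [rr_neg] at this
      rw [← div_eq_inv_mul, div_div, le_div_iff₀ (by positivity)]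
      calc _ = ‖W n (cn (-q) κ) (cn q ψ) σ‖ * wt σ ^ N * rr P ^ N * rr q ^ 3 := by ring
        _ ≤ ‖W n (cn (-q) κ) (cn q ψ) σ‖ * wt σ ^ (2 * N + 1 + a) * rr P ^ (2 * N + 1 + a) *
            rr q ^ 3 := by gcongr
        _ ≤ K * (c * rr q ^ a) * (C / rr q ^ (M + a + 3)) * (rr y * rr q) ^ M * rr q ^ 3 := by
            refine mul_le_mul_of_nonneg_right (this.trans ?_) (by positivity)
            gcongr
        _ = _ := by field_simp; ring
    have h3 := norm_integral_le_of_norm_le (int_rr.mul_const _) (.of_forall h2)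
    rw [integral_mul_const, ← mul_div_assoc, le_div_iff₀ (by positivity)] at h3
    have h4 := h1 σ
    rw [le_div_iff₀ (by positivity)] at h4
    have k0 := K0_nn
    calc _ ≤ (‖dv (fun p => ci p • W n (cn p κ) ψ) σ‖ +
          ‖∫ q, W n (cn (-q) κ) (cn q ψ) σ ∂Om‖) * wt σ ^ N * rr P ^ N := by
          gcongr; exact norm_add_le _ _
      _ ≤ K * c * C * rr y ^ M + K0 * (K * c * C * rr y ^ M) := by
          rw [add_mul, add_mul, mul_assoc ‖∫ q, _ ∂Om‖]; exact add_le_add h4 h3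
      _ = (K + K0 * K) * c * C * rr y ^ M := by ring
      _ ≤ _ := by gcongr

theorem Sb.nn {a N : ℕ} {c : ℝ} {κ : Wf} (h : Sb a N c κ) : 0 ≤ c := by
  have := h 0
  rw [wt_zero, one_pow, mul_one] at this
  exact le_trans (mul_nonneg (norm_nonneg _) (pow_pos (rr_pos _) N).le) this

theorem Sb.mono {a N M : ℕ} {c : ℝ} {κ : Wf} (h : Sb a M c κ) (le : N ≤ M) : Sb a N c κ :=
  fun σ => le_trans (mul_le_mul_of_nonneg_left (pow_le_pow_right₀ (rr_one _) le) (norm_nonneg _))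
    (h σ)

/-- the bound with a shift, the symbol being bounded in degree `n` only -/
theorem bd1 (n a N : ℕ) : ∃ (M : ℕ) (K : ℝ), 0 ≤ K ∧ ∀ (c C : ℝ) (κ ψ : Wf) (y : V), 0 ≤ c →
    (∀ σ, Multiset.card σ = n → ‖κ σ‖ * rr (y + σ.sum) ^ M ≤ c * wt σ ^ a) → Bd M C ψ →
    Bd N (K * c * C * rr y ^ M) (W n κ ψ) := by
  obtain ⟨M, K, K0', h⟩ := bd0 n a N
  refine ⟨M, K, K0', fun c C κ ψ y c0 hk hψ σ => le_trans ?_
    (h c C κ ψ 0 y c0 (by simp) (by simpa only [zero_add] using hk) hψ σ)⟩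
  exact le_mul_of_one_le_right (mul_nonneg (norm_nonneg _) (pow_pos (wt_pos σ) N).le)
    (one_le_pow₀ (rr_one 0))

/-- **the bound of a Wick monomial** -/
theorem bd_W (n a N : ℕ) : ∃ (M : ℕ) (K : ℝ), 0 ≤ K ∧ ∀ (c C : ℝ) (κ ψ : Wf),
    Sb a M c κ → Bd M C ψ → Bd N (K * c * C) (W n κ ψ) := by
  obtain ⟨M, K, K0', h⟩ := bd1 n a N
  refine ⟨M, K * rr 0 ^ M, mul_nonneg K0' (pow_pos (rr_pos 0) M).le, fun c C κ ψ hk hψ => ?_⟩
  have := h c C κ ψ 0 hk.nn (fun σ _ => by rw [zero_add]; exact hk σ) hψ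
  rwa [show K * c * C * rr 0 ^ M = K * rr 0 ^ M * c * C by ring] at this

theorem Sb.cn {a N : ℕ} {c : ℝ} {κ : Wf} (h : Sb a N c κ) (p : V) (σ : Multiset V) :
    ‖cn p κ σ‖ * rr (p + σ.sum) ^ N ≤ c * rr p ^ a * wt σ ^ a := by
  have := h (p ::ₘ σ)
  rwa [wt_cons, mul_pow, ← mul_assoc, Multiset.sum_cons] at this

theorem Sb.cn' {a N : ℕ} {c : ℝ} {κ : Wf} (h : Sb a N c κ) (p : V) :
    Sb a N (c * rr p ^ (a + N)) (P352R.cn p κ) := fun σ => by
  have e : rr σ.sum ≤ rr (p + σ.sum) * rr p := by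
    have := rr_add (p + σ.sum) (-p)
    rwa [add_neg_cancel_comm, rr_neg] at this
  have r := rr_pos p
  have r' := rr_pos σ.sum
  calc _ ≤ ‖P352R.cn p κ σ‖ * (rr (p + σ.sum) * rr p) ^ N := by gcongr
    _ = ‖P352R.cn p κ σ‖ * rr (p + σ.sum) ^ N * rr p ^ N := by ring
    _ ≤ c * rr p ^ a * wt σ ^ a * rr p ^ N := mul_le_mul_of_nonneg_right (h.cn p σ) (by positivity)
    _ = _ := by ring

theorem Gs.cn {κ : Wf} (h : Gs κ) (p : V) : Gs (cn p κ) :=
  ⟨ms_cn h.1 measurable_const, h.2.elim fun a b => ⟨a, fun N => (b N).elim fun _ s => ⟨_, s.cn' p⟩⟩⟩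

theorem nice_cn {ψ : Wf} (h : Nice ψ) (p : V) : Nice (cn p ψ) := h.cons p

theorem nice_W (n : ℕ) {κ ψ : Wf} (hk : Gs κ) (h : Nice ψ) : Nice (W n κ ψ) := by
  refine ⟨ms_W n hk.1 h.1, fun N => ?_⟩
  obtain ⟨a, ha⟩ := hk.2
  obtain ⟨M, K, -, b⟩ := bd_W n a N
  obtain ⟨c, hc⟩ := ha M
  obtain ⟨C, hC⟩ := h.2 M
  exact ⟨_, b c C κ ψ hc hC⟩

theorem wt_neg (σ : Multiset V) : wt (σ.map fun p => -p) = wt σ := by
  unfold wt; rw [Multiset.map_map]; exact congrArg _ (Multiset.map_congr rfl fun p _ => rr_neg p)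

theorem Sb.st {a N : ℕ} {c : ℝ} {κ : Wf} (h : Sb a N c κ) : Sb a N c (st κ) := fun σ => by
  have := h (σ.map fun p => -p)
  rw [wt_neg, Multiset.sum_map_neg', rr_neg] at this
  rwa [P352R.st, Complex.norm_conj]

theorem ms_st {k : α → Wf} (h : Ms k) : Ms fun a => st (k a) := fun n => by
  simp only [st, ms_map]
  exact Complex.continuous_conj.measurable.comp ((h n).comp (measurable_fst.prodMk
    (measurable_pi_iff.2 fun i => ((measurable_pi_apply i).comp measurable_snd).neg)))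

theorem Gs.st {κ : Wf} (h : Gs κ) : Gs (st κ) :=
  ⟨ms_st h.1, h.2.elim fun a b => ⟨a, fun N => (b N).elim fun c s => ⟨c, s.st⟩⟩⟩

theorem st_st (κ : Wf) : st (st κ) = κ := funext fun σ => by simp [st, Multiset.map_map]

theorem st_cn (p : V) (κ : Wf) : st (cn p κ) = cn (-p) (st κ) := funext fun σ => by
  simp [st, cn]

/-- the creation term of the recursion: rapid decay is not claimed, only polynomial growth in `p` -/
theorem bd_W1 (n : ℕ) {κ ψ : Wf} (hk : Gs κ) (h : Nice ψ) (N : ℕ) :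
    ∃ (b : ℕ) (C : ℝ), ∀ p, Bd N (C * rr p ^ b) (W n (cn p κ) ψ) := by
  obtain ⟨a, ha⟩ := hk.2
  obtain ⟨M, K, -, b⟩ := bd_W n a N
  obtain ⟨c, hc⟩ := ha M
  obtain ⟨C, hC⟩ := h.2 M
  refine ⟨a + M, K * c * C, fun p => ?_⟩
  have := b _ C _ ψ (hc.cn' p) hC
  rwa [show K * (c * rr p ^ (a + M)) * C = K * c * C * rr p ^ (a + M) by ring] at this

/-- the annihilation term of the recursion decays rapidly in `q` -/
theorem bd_W2 (n : ℕ) {κ ψ : Wf} (hk : Gs κ) (h : Nice ψ) (N : ℕ) :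
    ∃ C : ℝ, ∀ q, Bd N (C / rr q ^ N) (W n (cn (-q) κ) (cn q ψ)) := by
  obtain ⟨a, ha⟩ := hk.2
  obtain ⟨M, K, -, b⟩ := bd_W n a N
  obtain ⟨c, hc⟩ := ha M
  obtain ⟨C, hC⟩ := h.2 (a + M + N)
  refine ⟨K * c * C, fun q => ?_⟩
  have := b _ _ _ _ (hc.cn' (-q)) (bd_cn hC (by omega) q)
  have r := rr_pos q
  rwa [rr_neg, show K * (c * rr q ^ (a + M)) * (C / rr q ^ (a + M + N)) = K * c * C / rr q ^ N by
    field_simp; ring] at this

theorem int_W2 (n : ℕ) {κ ψ : Wf} (hk : Gs κ) (h : Nice ψ) (σ : Multiset V) :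
    Integrable (fun q => W n (cn (-q) κ) (cn q ψ) σ) Om := by
  obtain ⟨C, hC⟩ := bd_W2 n hk h 3
  refine (int_rr.const_mul C).mono' (Ms.par (F := fun q => W n (cn (-q) κ) (cn q ψ))
    (ms_W n (ms_cn (hk.1.at ()) measurable_neg) (ms_cn (h.1.at ()) measurable_id))
      σ).aestronglyMeasurable (.of_forall fun q => ?_)
  simpa [div_eq_mul_inv] using (hC q).mono (Nat.zero_le 3) σ

end

end Vale.Agent.P352R
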