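import Vale.Agent.P352W.Fk.Bas
import Vale.Agent.P352W.Fk.Bd

/-!
# P352R W — Wick monomials of any degree on wave functions: words (helper98)
-/

set_option autoImplicit false
set_option linter.all false

open MeasureTheory
open scoped ComplexConjugate Classical

namespace Vale.Agent.P352R

open Vale.Agent.P352.GF Vale.Agent.P352W.Cn Vale.Agent.P352W.Fk

noncomputable section

/-- one argument is fixed -/
def cn (p : V) (ψ : Wf) : Wf := fun σ => ψ (p ::ₘ σ)

/-- the normal ordered monomial of degree `n` with symbol `κ` -/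
def W : ℕ → Wf → Wf → Wf
  | 0, κ, ψ => κ 0 • ψ
  | n + 1, κ, ψ => dv (fun p => ci p • W n (cn p κ) ψ) +
      fun σ => ∫ q, W n (cn (-q) κ) (cn q ψ) σ ∂Om

/-- bounds of symbols -/
def Sb (a N : ℕ) (c : ℝ) (κ : Wf) : Prop := ∀ σ, ‖κ σ‖ * rr σ.sum ^ N ≤ c * wt σ ^ a

/-- good symbols -/
def Gs (κ : Wf) : Prop := Ms (fun _ : Unit => κ) ∧ ∃ a, ∀ N, ∃ c, Sb a N c κ

/-- the adjoint symbol -/
def st (κ : Wf) : Wf := fun σ => conj (κ (σ.map fun p => -p))

end

end Vale.Agent.P352R
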