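import Vale.Agent.P352R.W.Lin

/-!
# P352R W — degree two (helper98)
-/

set_option autoImplicit false
set_option linter.all false

open MeasureTheory
open scoped ComplexConjugate Classical Nat

namespace Vale.Agent.P352R

open Vale.Agent.P352.GF Vale.Agent.P352W.Cn Vale.Agent.P352W.Fk

noncomputable section

variable {κ ψ : Wf}

/-- **degree two** -/
theorem W_two (hk : Gs κ) (h : Nice ψ) : W 2 κ ψ = qq (fun p q => κ (p ::ₘ {q})) ψ := by
  have e : ∀ p q : V, κ (p ::ₘ {q}) = κ (q ::ₘ {p}) := fun p q =>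
    congrArg κ (Multiset.cons_swap p q 0)
  have i : ∀ p σ, Integrable (fun q => ci p * κ (-q ::ₘ {p}) * ψ (q ::ₘ σ)) Om := fun p σ => by
    have := (int_W2 0 (hk.cn p) h σ).const_mul (ci p)
    simp only [e (-_) p, mul_assoc]
    exact this
  rw [W_succ]
  simp only [W_one, P352W.Fk.ph, smul_add, dv_add, qq]
  rw [add_assoc, add_assoc]
  congr 1
  · simp only [← dv_smul, smul_smul, mul_assoc, cn]
  funext σ
  have i1 : Integrable (fun q => dv (fun p => (ci p * κ (-q ::ₘ {p})) • cn q ψ) σ) Om := by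
    simp only [dv_eq]
    exact P352W.Ms.int_dl σ fun p _ => i p _
  have i2 := (int_W2 1 hk h σ).sub i1
  simp only [W_one, P352W.Fk.ph] at i2
  have i3 : Integrable (fun q => it (fun q' => κ (-q ::ₘ {-q'}) • cn q ψ) σ) Om :=
    i2.congr (.of_forall fun q => add_sub_cancel_left _ _)
  have e1 : ∫ q, dv (fun p => (ci p * κ (-q ::ₘ {p})) • cn q ψ) σ ∂Om =
      dv (fun p => ci p • it fun q => κ (p ::ₘ {-q}) • ψ) σ := by
    simp only [dv_eq]
    refine (P352W.Ms.integral_dl σ fun p _ => i p _).trans (P352W.Ms.dl_congr fun p _ => ?_)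
    simp only [it, Pi.smul_apply, smul_eq_mul, e p, mul_assoc, integral_const_mul, cn]
  have e2 : (dv fun p => it fun q => (ci p * (κ (p ::ₘ {-q}) + κ (-q ::ₘ {p}))) • ψ) =
      dv fun p => ci p • (it fun q => κ (p ::ₘ {-q}) • ψ) +
        ci p • it fun q => κ (p ::ₘ {-q}) • ψ := congrArg dv (funext fun p => funext fun τ => by
    simp only [it, Pi.smul_apply, Pi.add_apply, smul_eq_mul, e (-_) p, ← two_mul,
      ← integral_const_mul]
    exact integral_congr_ae (.of_forall fun q => by ring))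
  rw [e2, dv_add]
  simp only [Pi.add_apply]
  rw [add_assoc]
  congr 1
  refine (integral_add i1 i3).trans ?_
  rw [e1]
  congr 1
  simp only [it, cn, Pi.smul_apply, Multiset.cons_swap _ _ σ]

end

end Vale.Agent.P352R
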