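import Vale.Agent.P352R.W.Bd

/-!
# P352R W — the product of the free field with a Wick monomial (helper14)
-/

set_option autoImplicit false
set_option linter.all false

open MeasureTheory
open scoped ComplexConjugate Classical

namespace Vale.Agent.P352R

open Vale.Agent.P352.GF Vale.Agent.P352W.Cn Vale.Agent.P352W.Fk
open Vale.Agent.P352W.Ms (dl dl_cons dl_add dl_mul dl_congr dl_comm int_dl integral_dl)

noncomputable section

namespace Wk

variable {κ κ' ψ : Wf} {h : V → ℂ}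

theorem W_succ (n : ℕ) (κ ψ : Wf) (σ : Multiset V) : W (n + 1) κ ψ σ =
    dl (fun p τ => ci p * W n (cn p κ) ψ τ) σ + ∫ q, W n (cn (-q) κ) (cn q ψ) σ ∂Om := by
  rw [W, dv_eq]; rfl

theorem W_pred (n : ℕ) (κ ψ : Wf) (σ : Multiset V) : (n : ℂ) * W n κ ψ σ =
    n * (dl (fun p τ => ci p * W (n - 1) (cn p κ) ψ τ) σ +
      ∫ q, W (n - 1) (cn (-q) κ) (cn q ψ) σ ∂Om) := by
  cases n with
  | zero => simp
  | succ n => rw [W_succ]; rfl

theorem cn_cn (p q : V) (ψ : Wf) : cn p (cn q ψ) = cn q (cn p ψ) :=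
  funext fun σ => congrArg ψ (Multiset.cons_swap _ _ _)

theorem cons_W (n : ℕ) (q : V) : ∀ {κ ψ : Wf}, Gs κ → Nice ψ → ∀ σ, W n κ ψ (q ::ₘ σ) =
    W n κ (cn q ψ) σ + n * ci q * W (n - 1) (cn q κ) ψ σ := by
  induction n with
  | zero => intro κ ψ _ _ σ; simp [W, cn]
  | succ n ih =>
    intro κ ψ hk h σ
    have e1 : dl (fun p τ => ci p * W n (cn p κ) ψ (q ::ₘ τ)) σ =
        dl (fun p τ => ci p * W n (cn p κ) (cn q ψ) τ) σ +
          n * ci q * dl (fun p τ => ci p * W (n - 1) (cn p (cn q κ)) ψ τ) σ := by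
      rw [← dl_mul, ← dl_add]
      exact dl_congr fun p _ => by rw [ih (hk.cn p) h, cn_cn q p]; ring
    have e2 : ∫ r, W n (cn (-r) κ) (cn r ψ) (q ::ₘ σ) ∂Om =
        ∫ r, W n (cn (-r) κ) (cn r (cn q ψ)) σ ∂Om +
          n * ci q * ∫ r, W (n - 1) (cn (-r) (cn q κ)) (cn r ψ) σ ∂Om := by
      rw [← integral_const_mul, ← integral_add (int_W2 n hk (nice_cn h q) σ)
        ((int_W2 (n - 1) (hk.cn q) h σ).const_mul _)]
      exact integral_congr_ae (.of_forall fun r => by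
        beta_reduce; rw [ih (hk.cn _) (nice_cn h r), cn_cn q r, cn_cn q (-r)])
    have e3 := W_pred n (cn q κ) ψ σ
    rw [W_succ, W_succ, dl_cons, e1, e2, Nat.add_sub_cancel]
    push_cast
    linear_combination (-ci q) * e3

theorem add_W (n : ℕ) : ∀ {κ κ' ψ : Wf}, Gs κ → Gs κ' → Nice ψ → ∀ σ,
    W n (κ + κ') ψ σ = W n κ ψ σ + W n κ' ψ σ := by
  induction n with
  | zero => intro κ κ' ψ _ _ _ σ; simp [W, add_mul]
  | succ n ih =>
    intro κ κ' ψ hk hk' h σ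
    rw [W_succ, W_succ, W_succ, add_add_add_comm, ← dl_add,
      ← integral_add (int_W2 n hk h σ) (int_W2 n hk' h σ)]
    exact congrArg₂ _ (dl_congr fun p _ => by rw [← mul_add, ← ih (hk.cn p) (hk'.cn p) h]; rfl)
      (integral_congr_ae (.of_forall fun r => ih (hk.cn _) (hk'.cn _) (nice_cn h r) σ))

theorem smul_W (n : ℕ) (c : ℂ) : ∀ (κ ψ : Wf) σ, W n (c • κ) ψ σ = c * W n κ ψ σ := by
  induction n with
  | zero => intro κ ψ σ; simp [W, mul_assoc]
  | succ n ih =>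
    intro κ ψ σ
    rw [W_succ, W_succ, mul_add, ← dl_mul, ← integral_const_mul]
    exact congrArg₂ _ (dl_congr fun p _ => by rw [mul_left_comm, ← ih]; rfl)
      (integral_congr_ae (.of_forall fun r => ih _ _ σ))

theorem sb_smul {a N : ℕ} {c : ℝ} (z : ℂ) (hk : Sb a N c κ) : Sb a N (‖z‖ * c) (z • κ) :=
  fun σ => by
    rw [Pi.smul_apply, norm_smul, mul_assoc, mul_assoc]
    exact mul_le_mul_of_nonneg_left (hk σ) (norm_nonneg _)

theorem gs_smul (z : ℂ) (hk : Gs κ) : Gs (z • κ) :=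
  ⟨hk.1.smul (c := fun _ => z) measurable_const,
    hk.2.imp fun a b N => (b N).elim fun _ s => ⟨_, sb_smul z s⟩⟩

end Wk

open Wk

variable {α : Type} [MeasurableSpace α] {μ : Measure α} {k F : α → Wf} {a : ℕ} {κ ψ : Wf}
  {h : V → ℂ}

/-- integrable families of pairs of a symbol and a wave function -/
def Jf (a : ℕ) (μ : Measure α) (k F : α → Wf) : Prop := Ms k ∧ Ms F ∧ ∀ M, ∃ g : α → ℝ,
  Integrable g μ ∧ ∀ x, ∃ c C, Sb a M c (k x) ∧ Bd M C (F x) ∧ c * C ≤ g x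

theorem Jf.int (j : Jf a μ k F) (n : ℕ) (σ : Multiset V) :
    Integrable (fun x => W n (k x) (F x) σ) μ := by
  obtain ⟨M, K, K0', b⟩ := bd_W n a 0
  obtain ⟨g, hg, hb⟩ := j.2.2 M
  refine (hg.const_mul K).mono' ((ms_W n j.1 j.2.1).par σ).aestronglyMeasurable
    (.of_forall fun x => ?_)
  obtain ⟨c, C, s, t, l⟩ := hb x
  have := b c C _ _ s t σ
  rw [pow_zero, mul_one, mul_assoc] at this
  exact this.trans (mul_le_mul_of_nonneg_left l K0')

theorem Jf.cn (j : Jf a μ k F) (p : V) : Jf a μ (fun x => cn p (k x)) F :=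
  ⟨ms_cn j.1 measurable_const, j.2.1, fun M => by
    obtain ⟨g, hg, hb⟩ := j.2.2 M
    refine ⟨_, hg.mul_const (rr p ^ (a + M)), fun x => ?_⟩
    obtain ⟨c, C, s, t, l⟩ := hb x
    refine ⟨_, _, s.cn' p, t, ?_⟩
    rw [mul_right_comm]
    exact mul_le_mul_of_nonneg_right l (pow_pos (rr_pos p) _).le⟩

theorem Jf.key {M : ℕ} {c C g : ℝ} (s : Sb a (a + M + 3) c κ) (t : Bd (a + M + 3) C ψ)
    (l : c * C ≤ g) (q : V) : ∃ c' C', Sb a M c' (P352R.cn (-q) κ) ∧ Bd M C' (P352R.cn q ψ) ∧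
      c' * C' ≤ g * (rr q ^ 3)⁻¹ := by
  have r := rr_pos q
  refine ⟨_, _, (s.mono (by omega)).cn' (-q), bd_cn t (by omega) q, ?_⟩
  rw [rr_neg, show c * rr q ^ (a + M) * (C / rr q ^ (a + M + 3)) = c * C * (rr q ^ 3)⁻¹ by
    field_simp; ring]
  gcongr

theorem Jf.cn2 (j : Jf a μ k F) (q : V) :
    Jf a μ (fun x => P352R.cn (-q) (k x)) fun x => P352R.cn q (F x) :=
  ⟨ms_cn j.1 measurable_const, ms_cn j.2.1 measurable_const, fun M => by
    obtain ⟨g, hg, hb⟩ := j.2.2 (a + M + 3)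
    exact ⟨_, hg.mul_const (rr q ^ 3)⁻¹, fun x => by
      obtain ⟨c, C, s, t, l⟩ := hb x
      exact Jf.key s t l q⟩⟩

theorem Jf.prod [SFinite μ] (j : Jf a μ k F) : Jf a (μ.prod Om)
    (fun z => P352R.cn (-z.2) (k z.1)) fun z => P352R.cn z.2 (F z.1) :=
  ⟨ms_cn (j.1.comp measurable_fst) measurable_snd.neg,
    ms_cn (j.2.1.comp measurable_fst) measurable_snd, fun M => by
    obtain ⟨g, hg, hb⟩ := j.2.2 (a + M + 3)
    exact ⟨_, hg.mul_prod int_rr, fun z => by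
      obtain ⟨c, C, s, t, l⟩ := hb z.1
      exact Jf.key s t l z.2⟩⟩

/-- **a Wick monomial commutes with integrals** -/
theorem W_int [SFinite μ] (n : ℕ) : ∀ {k F : α → Wf} {κ ψ : Wf}, Jf a μ k F →
    (∀ σ τ, κ σ * ψ τ = ∫ x, k x σ * F x τ ∂μ) → ∀ σ, W n κ ψ σ = ∫ x, W n (k x) (F x) σ ∂μ := by
  induction n with
  | zero => intro k F κ ψ _ e σ; exact e 0 σ
  | succ n ih =>
    intro k F κ ψ j e σ
    have i1 : ∀ p τ, Integrable (fun x => ci p * W n (cn p (k x)) (F x) τ) μ :=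
      fun p τ => ((j.cn p).int n τ).const_mul _
    have i2 := j.prod.int n σ
    simp only [W_succ]
    rw [integral_add (int_dl (F := fun x p τ => ci p * W n (cn p (k x)) (F x) τ) σ i1)
      i2.integral_prod_left, integral_dl (F := fun x p τ => ci p * W n (cn p (k x)) (F x) τ) σ i1,
      integral_integral_swap (f := fun x q => W n (cn (-q) (k x)) (cn q (F x)) σ) i2]
    exact congrArg₂ _ (dl_congr fun p _ => by
        rw [integral_const_mul, ← ih (κ := cn p κ) (j.cn p) fun σ τ => e _ τ])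
      (integral_congr_ae (.of_forall fun q => ih (j.cn2 q) (fun σ τ => e _ _) σ))

theorem jf_h {k F : V → Wf} (hh : Hs h) (hk : Ms k) (hF : Ms F)
    (b : ∀ M, ∃ (b : ℕ) (c C : ℝ), ∀ q, Sb a M (c * rr q ^ b) (k q) ∧ Bd M C (F q)) :
    Jf a Om (fun q => h (-q) • k q) F :=
  ⟨hk.smul (hh.1.comp measurable_neg), hF, fun M => by
    obtain ⟨b, c, C, s⟩ := b M
    obtain ⟨d, hd⟩ := hh.2 (b + 3)
    refine ⟨_, int_rr.const_mul (d * (c * C)), fun q => ⟨_, _, sb_smul _ (s q).1, (s q).2, ?_⟩⟩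
    have r := rr_pos q
    have c0 : 0 ≤ c := nonneg_of_mul_nonneg_left (s q).1.nn (pow_pos r b)
    have C0 := (s q).2.nn
    have := hd (-q)
    rw [rr_neg] at this
    calc _ = ‖h (-q)‖ * rr q ^ (b + 3) * (c * C) * (rr q ^ 3)⁻¹ := by field_simp; ring
      _ ≤ _ := by gcongr⟩

theorem jf_1 (hh : Hs h) (hk : Gs κ) (hψ : Nice ψ) :
    ∃ a, Jf a Om (fun q => h (-q) • κ) fun q => cn q ψ :=
  hk.2.imp fun a b => jf_h hh (hk.1.at ()) (ms_cn (hψ.1.at ()) measurable_id) fun M => by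
    obtain ⟨c, hc⟩ := b M
    obtain ⟨C, hC⟩ := hψ.2 M
    exact ⟨0, c, C, fun q => ⟨by rwa [pow_zero, mul_one], Bq.bd_mono (bd_cn hC le_rfl q) le_rfl
      (div_le_self hC.nn (one_le_pow₀ (rr_one q)))⟩⟩

theorem jf_2 (hh : Hs h) (hk : Gs κ) (hψ : Nice ψ) :
    ∃ a, Jf a Om (fun q => h (-q) • cn q κ) fun _ => ψ :=
  hk.2.imp fun a b => jf_h hh (ms_cn (hk.1.at ()) measurable_id) (hψ.1.at ()) fun M => by
    obtain ⟨c, hc⟩ := b M
    obtain ⟨C, hC⟩ := hψ.2 M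
    exact ⟨_, c, C, fun q => ⟨hc.cn' q, hC⟩⟩

theorem int_an1 (n : ℕ) (hh : Hs h) (hk : Gs κ) (hψ : Nice ψ) (σ : Multiset V) :
    Integrable (fun q => h (-q) * W n κ (cn q ψ) σ) Om ∧
      ∫ q, h (-q) * W n κ (cn q ψ) σ ∂Om = W n κ (it fun q => h (-q) • ψ) σ := by
  obtain ⟨a, j⟩ := jf_1 hh hk hψ
  have := W_int n (κ := κ) (ψ := it fun q => h (-q) • ψ) j (fun σ τ => by
    rw [it, ← integral_const_mul]
    exact integral_congr_ae (.of_forall fun q => by simp [cn, mul_assoc, mul_left_comm])) σ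
  simpa only [smul_W] using And.intro (j.int n σ) this.symm

theorem int_an2 (n : ℕ) (hh : Hs h) (hk : Gs κ) (hψ : Nice ψ) (σ : Multiset V) :
    Integrable (fun q => h (-q) * W n (cn q κ) ψ σ) Om ∧
      ∫ q, h (-q) * W n (cn q κ) ψ σ ∂Om = W n (it fun q => h (-q) • κ) ψ σ := by
  obtain ⟨a, j⟩ := jf_2 hh hk hψ
  have := W_int n (κ := it fun q => h (-q) • κ) (ψ := ψ) j (fun σ τ => by
    rw [it, ← integral_mul_const]; rfl) σ
  simpa only [smul_W] using And.intro (j.int n σ) this.symm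

theorem nice_an (hh : Hs h) (hψ : Nice ψ) : Nice (it fun q => h (-q) • ψ) :=
  ⟨Ms.it (F := fun _ q => h (-q) • ψ) ((hψ.1.at ()).smul (hh.1.comp measurable_snd.neg)),
    fun N => by
      obtain ⟨b, hb⟩ := hh.2 0
      obtain ⟨C, hC⟩ := hψ.2 (N + 0 + 3)
      exact ⟨_, bd_an (a := 0) (b := b) (fun q => by simpa using hb (-q)) hC⟩⟩

theorem cn_an (q : V) (h : V → ℂ) (ψ : Wf) :
    cn q (it fun r => h (-r) • ψ) = it fun r => h (-r) • cn q ψ :=
  funext fun σ => integral_congr_ae (.of_forall fun r =>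
    congrArg (fun τ => h (-r) * ψ τ) (Multiset.cons_swap _ _ _))

theorem cn_cr (q : V) (h : V → ℂ) (κ : Wf) :
    cn q (dv fun p => h p • κ) = h q • κ + dv fun p => h p • cn q κ :=
  funext fun σ => by rw [dv_eq, dv_eq]; exact dl_cons _ q σ

/-- the symbol with one more factor -/
theorem Gs.dv (hk : Gs κ) (hh : Hs h) : Gs (dv fun p => h p • κ) := by
  refine ⟨Ms.dv (F := fun _ p => h p • κ) ((hk.1.at ()).smul (hh.1.comp measurable_snd)), ?_⟩
  obtain ⟨a, b⟩ := hk.2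
  refine ⟨a + 1, fun N => ?_⟩
  obtain ⟨c, hc⟩ := b N
  obtain ⟨d, hd⟩ := hh.2 N
  refine ⟨d * c, fun σ => ?_⟩
  have r := rr_pos σ.sum
  have w := wt_pos σ
  have c0 := hc.nn
  have d0 := Bq.hb0 hd
  have k : ∀ x ∈ σ.map fun p => ‖(h p • κ) (σ.erase p)‖, x ≤ d * c * wt σ ^ a / rr σ.sum ^ N := by
    intro x hx
    obtain ⟨p, hp, rfl⟩ := Multiset.mem_map.1 hx
    have e : rr σ.sum ≤ rr p * rr (σ.erase p).sum := by
      rw [← Multiset.sum_erase hp]; exact rr_add _ _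
    have e' : wt (σ.erase p) ≤ wt σ := by
      rw [wt_erase hp]; exact le_mul_of_one_le_left (wt_pos _).le (rr_one p)
    have w' := wt_pos (σ.erase p)
    rw [le_div_iff₀ (by positivity), Pi.smul_apply, norm_smul]
    calc _ ≤ ‖h p‖ * ‖κ (σ.erase p)‖ * (rr p * rr (σ.erase p).sum) ^ N := by gcongr
      _ = ‖h p‖ * rr p ^ N * (‖κ (σ.erase p)‖ * rr (σ.erase p).sum ^ N) := by ring
      _ ≤ d * (c * wt (σ.erase p) ^ a) := mul_le_mul (hd p) (hc _)
          (mul_nonneg (norm_nonneg _) (pow_pos (rr_pos _) _).le) d0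
      _ ≤ d * (c * wt σ ^ a) := by gcongr
      _ = _ := by ring
  have k2 := Multiset.sum_le_card_nsmul _ _ k
  rw [Multiset.card_map, nsmul_eq_mul] at k2
  have k3 := norm_multiset_sum_le (σ.map fun p => (h p • κ) (σ.erase p))
  rw [Multiset.map_map] at k3
  rw [← le_div_iff₀ (by positivity)]
  calc _ ≤ _ := k3.trans k2
    _ ≤ wt σ * (d * c * wt σ ^ a / rr σ.sum ^ N) := by gcongr; exact card_le_wt σ
    _ = _ := by ring

/-- the contracted symbol -/
theorem Gs.it (hk : Gs κ) (hh : Hs h) : Gs (it fun q => h (-q) • κ) := by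
  refine ⟨Ms.it (F := fun _ q => h (-q) • κ) ((hk.1.at ()).smul (hh.1.comp measurable_snd.neg)), ?_⟩
  obtain ⟨a, b⟩ := hk.2
  refine ⟨a, fun N => ?_⟩
  obtain ⟨c, hc⟩ := b N
  obtain ⟨d, hd⟩ := hh.2 (a + N + 3)
  refine ⟨K0 * (d * c), fun σ => ?_⟩
  have r := rr_pos σ.sum
  have w := wt_pos σ
  have c0 := hc.nn
  have k : ∀ q, ‖(h (-q) • κ) (q ::ₘ σ)‖ ≤ (rr q ^ 3)⁻¹ * (d * c * wt σ ^ a / rr σ.sum ^ N) := by
    intro q
    have rq := rr_pos q
    have k1 := hd (-q)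
    rw [rr_neg] at k1
    rw [← div_eq_inv_mul, div_div, le_div_iff₀ (by positivity), Pi.smul_apply, norm_smul]
    calc _ = ‖h (-q)‖ * rr q ^ 3 * (‖P352R.cn q κ σ‖ * rr σ.sum ^ N) := by unfold P352R.cn; ring
      _ ≤ ‖h (-q)‖ * rr q ^ 3 * (c * rr q ^ (a + N) * wt σ ^ a) :=
          mul_le_mul_of_nonneg_left (hc.cn' q σ) (by positivity)
      _ = ‖h (-q)‖ * rr q ^ (a + N + 3) * c * wt σ ^ a := by ring
      _ ≤ _ := by gcongr
  have h3 := norm_integral_le_of_norm_le (int_rr.mul_const _) (.of_forall k)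
  rw [integral_mul_const, ← mul_div_assoc, le_div_iff₀ (by positivity)] at h3
  exact h3.trans_eq (by unfold K0; ring)

theorem sym (n : ℕ) (hh : Hs h) : ∀ {κ ψ : Wf}, Gs κ → Nice ψ → ∀ σ,
    W n (dv fun p => h p • κ) ψ σ = n * (dl (fun p τ => ci p * h p * W (n - 1) κ ψ τ) σ +
      W (n - 1) κ (it fun q => h (-q) • ψ) σ) := by
  induction n with
  | zero => intro κ ψ _ _ σ; simp [W, dv_zero]
  | succ n ih =>
    intro κ ψ hk hψ σ
    have E : ∀ p {χ : Wf}, Nice χ → ∀ τ, W n (cn p (dv fun p => h p • κ)) χ τ =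
        h p * W n κ χ τ + n * (dl (fun r υ => ci r * h r * W (n - 1) (cn p κ) χ υ) τ +
          W (n - 1) (cn p κ) (it fun q => h (-q) • χ) τ) := fun p χ hχ τ => by
      rw [cn_cr, add_W n (gs_smul _ hk) ((hk.cn p).dv hh) hχ, smul_W, ih (hk.cn p) hχ]
    have i1 : ∀ r υ, Integrable (fun q => ci r * h r * W (n - 1) (cn (-q) κ) (cn q ψ) υ) Om :=
      fun r υ => (int_W2 _ hk hψ υ).const_mul _
    have i2 := int_dl (F := fun q r υ => ci r * h r * W (n - 1) (cn (-q) κ) (cn q ψ) υ) σ i1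
    have i3 := int_W2 (n - 1) hk (nice_an hh hψ) σ
    have e1 : dl (fun p τ => ci p * W n (cn p (dv fun p => h p • κ)) ψ τ) σ =
        dl (fun p τ => ci p * h p * W n κ ψ τ) σ + n * (dl (fun r τ => ci r * h r *
          dl (fun p υ => ci p * W (n - 1) (cn p κ) ψ υ) τ) σ +
          dl (fun p τ => ci p * W (n - 1) (cn p κ) (it fun q => h (-q) • ψ) τ) σ) := by
      simp only [← dl_mul]
      rw [← dl_comm, ← dl_add, ← dl_mul, ← dl_add]
      refine dl_congr fun p _ => ?_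
      have : ∀ τ, dl (fun r υ => ci r * h r * (ci p * W (n - 1) (cn p κ) ψ υ)) τ =
          ci p * dl (fun r υ => ci r * h r * W (n - 1) (cn p κ) ψ υ) τ := fun τ => by
        rw [← dl_mul]; exact dl_congr fun r _ => mul_left_comm _ _ _
      rw [E p hψ, this]
      ring
    have e2 : ∫ q, W n (cn (-q) (dv fun p => h p • κ)) (cn q ψ) σ ∂Om =
        W n κ (it fun q => h (-q) • ψ) σ + n * (dl (fun r τ => ci r * h r *
          ∫ q, W (n - 1) (cn (-q) κ) (cn q ψ) τ ∂Om) σ +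
          ∫ q, W (n - 1) (cn (-q) κ) (cn q (it fun q => h (-q) • ψ)) σ ∂Om) := by
      simp only [← integral_const_mul]
      rw [← integral_dl (F := fun q r υ => ci r * h r * W (n - 1) (cn (-q) κ) (cn q ψ) υ) σ i1,
        ← integral_add i2 i3, ← integral_const_mul, ← (int_an1 n hh hk hψ σ).2,
        ← integral_add (int_an1 n hh hk hψ σ).1 ((i2.fun_add i3).const_mul _)]
      exact integral_congr_ae (.of_forall fun q => by
        beta_reduce; rw [E _ (nice_cn hψ q), cn_an])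
    have e3 := W_pred n κ (it fun q => h (-q) • ψ) σ
    have e4 : n * dl (fun p τ => ci p * h p * W n κ ψ τ) σ = n * (dl (fun r τ => ci r * h r *
        dl (fun p υ => ci p * W (n - 1) (cn p κ) ψ υ) τ) σ + dl (fun r τ => ci r * h r *
          ∫ q, W (n - 1) (cn (-q) κ) (cn q ψ) τ ∂Om) σ) := by
      rw [← dl_add, ← dl_mul, ← dl_mul]
      have : ∀ p τ, n * (ci p * h p * W n κ ψ τ) = n * (ci p * h p *
          dl (fun p υ => ci p * W (n - 1) (cn p κ) ψ υ) τ + ci p * h p *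
          ∫ q, W (n - 1) (cn (-q) κ) (cn q ψ) τ ∂Om) :=
        fun p τ => by linear_combination ci p * h p * W_pred n κ ψ τ
      exact dl_congr fun p _ => this p _
    rw [W_succ, e1, e2, Nat.add_sub_cancel]
    push_cast
    linear_combination -e3 - e4

/-- **the commutator with an annihilation** -/
theorem cn_W (n : ℕ) (q : V) (hk : Gs κ) (hψ : Nice ψ) :
    cn q (W n κ ψ) = W n κ (cn q ψ) + ((n : ℂ) * ci q) • W (n - 1) (cn q κ) ψ :=
  funext fun σ => cons_W n q hk hψ σ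

/-- **the product of the free field with a Wick monomial** -/
theorem wick (n : ℕ) (hh : Hs h) (hk : Gs κ) (hψ : Nice ψ) : ph h (W n κ ψ) =
    ((n : ℂ) + 1)⁻¹ • W (n + 1) (dv fun p => h p • κ) ψ +
      (n : ℂ) • W (n - 1) (it fun q => h (-q) • κ) ψ := by
  funext σ
  obtain ⟨i1, e1⟩ := int_an1 n hh hk hψ σ
  obtain ⟨i2, e2⟩ := int_an2 (n - 1) hh hk hψ σ
  have e : ∫ q, h (-q) * W n κ ψ (q ::ₘ σ) ∂Om = W n κ (it fun q => h (-q) • ψ) σ +
      n * W (n - 1) (it fun q => h (-q) • κ) ψ σ := by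
    rw [← e1, ← e2, ← integral_const_mul, ← integral_add i1 (i2.const_mul _)]
    exact integral_congr_ae (ci_ae.mono fun q hq => by
      beta_reduce; rw [cons_W n q hk hψ, hq]; ring)
  rw [ph, dv_eq]
  show dl (fun p τ => ci p * h p * W n κ ψ τ) σ + ∫ q, h (-q) * W n κ ψ (q ::ₘ σ) ∂Om =
    ((n : ℂ) + 1)⁻¹ * W (n + 1) (dv fun p => h p • κ) ψ σ +
      n * W (n - 1) (it fun q => h (-q) • κ) ψ σ
  rw [e, sym (n + 1) hh hk hψ, Nat.add_sub_cancel, Nat.cast_succ,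
    inv_mul_cancel_left₀ (Nat.cast_add_one_ne_zero n), add_assoc]

end

end Vale.Agent.P352R
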